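import Crest.Agent.X212.Nr55.Tga
import Crest.Agent.X212.Ax1.La
import Crest.Agent.X212.Hp13.Rcj
import Crest.Agent.X212.Dead36.Main
import Crest.Agent.X212.Num57.Nti

/-!
# Row 212, NT-R (helper39): the leaf LA
-/

set_option autoImplicit false
set_option linter.unusedSectionVars false
noncomputable section
open scoped Manifold ContDiff Topology InnerProductSpace
open MeasureTheory Set Function Filter

namespace Crest.Agent.X212.Hsa39.La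
open An M Nd18 Mod61 Nk89 Cht98 Rf65 Pte3 Qab60 Nr41 Sob92 Eqv71 Nt66
open Dead36 (ZO dsum_C fsum_C)
open Ax1.Lf (lα lα_pt const_der hs_id id_ofV eq_id val_id)

section job
variable {Wi : Type} {X : Mf 4} {A κ lam : Type} [Fintype A] [Fintype κ] [Fintype lam]
  [DecidableEq lam] {M : Mark X A κ} {W : World M} {N : ML M lam} {Λ : Lns W N}
  {A' h : Type} [Fintype A'] [DecidableEq A'] [Fintype h] {r n : ℕ}
  {J : Job Wi Λ A' h r n} {c : M.Cl} {σ : Cel A'} {s : A' → ℝ} {q : Wi →₀ ℝ} {O : Set (W.Z c).M}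
  {y y' : Cfg (W.Z c).M (Option κ) (lam ⊕ lam) r}

theorem τC_con (z : ZO (J.G c s).F y O) {x} (hx : x ∈ O) :
    (J.noz.τ c q s).C y.con x = (J.τ c q s).C y x := by
  have cn : ∀ a, ConnectedSpace (J.xs a).Y.M := fun a =>
    have := (M.bn a).con
    (J.g a).symm.toHomeomorph.surjective.connectedSpace (J.g a).symm.continuous
  refine congrArg₂ (· + ·) (dsum_C fun i k => ?_) (fsum_C fun w => congrArg₂ (· + ·)
    (congrArg (J.co w s • ·) ?_) (dsum_C fun i k => fsum_C fun T => ?_))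
  · have := cn i.1
    exact z.q1 _ _ hx
  · refine Eq.trans ?_ (z.tC _ ((J.tp c).tm (J.tw w)) hx)
    show y.con.tC _ _ ((J.tp c).tm (J.tw w).noz) x = _
    cases J.tw w <;> rfl
  · have := cn i.1
    exact z.q2 _ _ _ hx

/-- the curvature row over a clopen set without spinor -/
theorem eC_on (hJ : J.OK) (hσ : σ ∈ J.𝒦) (hs : J.Ov σ c s) (hO : IsClopen O)
    (a : Ad0 y (J.B c) (J.G c s)) (hz : ∀ z ∈ O, y.Φ z = 0) {W' : y.m.Cn}
    (a' : y.m.IsConn (J.B c) (J.G c s) W') (e : ∀ z ∈ O, ∀ i, W' i z = y.W i z) {x} (hx : x ∈ O) :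
    (⟨y.m, W', 0, y.z⟩ : Cfg _ _ _ r).eC (J.B c) (J.G c s) (J.τ c q s) x =
      y.eC (J.B c) (J.G c s) (J.τ c q s) x := by
  have g := hJ.kt hσ hs hO
  have t := hJ.τ_nat hσ hs hO q
  have b := Mp86.bumps_of_tame _ (hJ.tame hσ hs).choose_spec
  have a0 : ∀ {V : y.m.Cn}, y.m.IsConn (J.B c) (J.G c s) V →
      Ad0 (⟨y.m, V, 0, y.z⟩ : Cfg _ _ _ r) (J.B c) (J.G c s) :=
    fun k => ⟨a.ok, k, contMDiff_const, fun _ => map_zero _⟩
  have e0 := ceq_refl g.hB g.hG (a0 a.conn) hO.2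
  have k0 : CR0 _ _ _ _ O O _ _ _ ⟨y.m, y.W, 0, y.z⟩ ⟨y.m, y.W, 0, y.z⟩ y.m.p 1 :=
    ⟨a0 a.conn, a0 a.conn, fun _ _ => rfl, fun _ _ => rfl, e0⟩
  have k : CR0 _ _ _ _ O O _ _ _ ⟨y.m, y.W, 0, y.z⟩ ⟨y.m, W', 0, y.z⟩ y.m.p 1 :=
    ⟨a0 a.conn, a0 a', fun _ _ => rfl, fun _ _ => rfl, e0.m,
      fun z hz a => by simp only [id, e z hz]; exact e0.W z hz a, e0.Φ, e0.z⟩
  refine (t.eC g.toLG k hx).trans ((t.eC g.toLG k0 hx).symm.trans ?_)
  have z1 := τC_con (q := q) (O := O) ⟨hO, b, mc_W a.conn, mc_adW a.conn, hz⟩ hx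
  have z2 := τC_con (q := q) (O := O) (y := ⟨y.m, y.W, 0, y.z⟩)
    ⟨hO, b, mc_W a.conn, mc_adW a.conn, fun _ _ => rfl⟩ hx
  exact congrArg₂ (fun v w => y.m.p2 (J.B c) x (y.m.Fg (J.G c s).F y.W x) - y.m.mu (J.B c) x v v - w)
    (hz x hx).symm (z2.symm.trans z1)

variable {p : Prt A A' h} {U : Type} [Fintype U] {δ : ℝ} {b : Bp J c} {E : EC b p U δ}
  (H : CS σ E) (x : Pnt E.o r) {P : Set (Reg A)} (h1 : P ⊆ p.P)
  (F : (b.F (sp p P ∅ ∅) U δ).OK) {f : E.C → E.Y} (hf : E.Map q f) (ψ : E.K)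
  {g : (rf E x.t P ∅ ∅).C r 8 → (rf E x.t P ∅ ∅).Y n (min r 1) 8}
  (hg : RepF (EC.tot b (sp p P ∅ ∅) U δ q) g) (hz : ∀ z ∈ W.un c P, x.cfg.Φ z = 0)
include H h1 F hf hg hz

theorem val_in {u} (hu : u ∈ Mod61.Hs (b.F p U δ).F0.toPre (rf E x.t P ∅ ∅).P1)
    (hu' : u ∈ Mod61.Hs (b.F p U δ).F0.toPre E.o.P1) (s : ℝ) {z} (k : z ∈ W.un c P) :
    (b.F p U δ).F0.val 8 E.o.P2 (f ((lα x hu' s).pt 8, ψ)).1.2.1 z = (b.F p U δ).F0.val 8
      (rf E x.t P ∅ ∅).P2 (g ((lα (rx H x h1 (empty_subset _) ∅) hu s).pt 8)).2.1 z := by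
  have c1 := (congrFun (hf.e (lα x hu' s) ψ).C z).trans ((indicator_of_mem
    (s := W.un c p.P) (biUnion_subset_biUnion_left h1 k) _).trans
      ((tot_ev (b := b) (U := U) (δ := δ) (t := x.t) (q := q) (lα x hu' s).cfg).2.1 z))
  have c2 := (congrFun (hg.2 (lα (rx H x h1 (empty_subset _) ∅) hu s)).C z).trans
    ((indicator_of_mem (s := W.un c P) k _).trans ((tot_ev (b := b) (p := sp p P ∅ ∅) (U := U)
      (δ := δ) (t := x.t) (q := q) (lα (rx H x h1 (empty_subset _) ∅) hu s).cfg).2.1 z))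
  have e := eC_on (q := q) H.ok H.mem (H.ovx x) (O := W.un c P) F.Om ((lα x hu' s).ad0 H.F) hz
    ((lα (rx H x h1 (empty_subset _) ∅) hu s).ad0 F).conn (fun y hy i => Ax1.Lf.W_rf' (P := P) x
      (congrArg (· + s • u y) (indicator_of_mem hy x.α)) i) k
  have e0 : (rf E x.t P ∅ ∅).Φ0 + (W.un c ∅).indicator x.φ = 0 := funext fun z =>
    (zero_add _).trans (indicator_of_notMem (by simp [Caps.un]) _)
  refine c1.trans (e.symm.trans (Eq.trans ?_ c2.symm))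
  exact congrArg (β := Fm (Option κ × Option κ) E.o.m.A) (fun Φ => (⟨E.o.m,
    (lα (rx H x h1 (empty_subset _) ∅) hu s).cfg.W, Φ, x.z⟩ : Cfg _ _ _ r).eC (J.B c)
      (J.G c (b.θ p U x.t)) (J.τ c q (b.θ p U x.t)) z) e0.symm

theorem der_in (α : (b.F p U δ).F0.H 9 (rf E x.t P ∅ ∅).P1) {z} (k : z ∈ W.un c P) :
    (b.F p U δ).F0.val 8 E.o.P2 (Ld f x ψ
      (((b.F p U δ).F0.mulH 9 _ _ (fun _ => .id ℝ _) α, 0, 0), 0)).1.2.1 z =
    (b.F p U δ).F0.val 8 (rf E x.t P ∅ ∅).P2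
      (fderiv ℝ g ((rx H x h1 (empty_subset _) ∅).pt 8) (α, 0, 0)).2.1 z := by
  have S := H.F.sup
  let π : E.Y →L[ℝ] _ := (b.F p U δ).F0.ev 8 E.o.P2 z ∘L .fst ℝ _ _ ∘L .snd ℝ _ _ ∘L .fst ℝ _ _
  let L : (rf E x.t P ∅ ∅).Y n (min r 1) 8 →L[ℝ] _ :=
    (b.F (sp p P ∅ ∅) U δ).F0.ev 8 (rf E x.t P ∅ ∅).P2 z ∘L .fst ℝ _ _ ∘L .snd ℝ _ _
  change π _ = L _
  revert α
  refine funext_iff.1 (Continuous.ext_on (dense_ofV S (k := 9) (by norm_num)) (by fun_prop)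
    (by fun_prop) ?_)
  rintro _ ⟨u, hu, rfl⟩
  have m := Ax1.Lf.map1 (P := P) x h1
  have hu' := hs_id (P := (rf E x.t P ∅ ∅).P1) (Q := E.o.P1) S m hu
  have k' := id_ofV (P := (rf E x.t P ∅ ∅).P1) (Q := E.o.P1) S m (k := 9) (by norm_num) hu
  refine (congrArg (fun a => π (fderiv ℝ f (x.pt 8, ψ) ((a, 0, 0), 0))) k').trans ?_
  exact const_der (f := f) (g := g) (x := (x.pt 8, ψ)) (v := ((ofV _ 9 E.o.P1 u, 0, 0), 0))
    (v' := (ofV _ 9 (rf E x.t P ∅ ∅).P1 u, 0, 0)) π L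
    ((hf.sm.contDiffAt (((isOpen_U H.F).prod isOpen_univ).mem_nhds
      ⟨x.mem_U, trivial⟩)).differentiableAt (by simp)) ((hg.1.contDiffAt ((isOpen_U F).mem_nhds
      (Pnt.mem_U _))).differentiableAt (by simp)) (y := fun s => ((lα x hu' s).pt 8, ψ))
    (y' := fun s => (lα (rx H x h1 (empty_subset _) ∅) hu s).pt 8) (fun s => Prod.ext
      (lα_pt (k := 8) H.F x hu' (by norm_num) s) (by simp)) (lα_pt (k := 8) F _ hu (by norm_num))
    fun s s' => (sub_eq_zero.2 (val_in H x h1 F hf ψ hg hz hu hu' s k)).trans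
      (sub_eq_zero.2 (val_in H x h1 F hf ψ hg hz hu hu' s' k)).symm

theorem vc_eq {α' : (b.F p U δ).F0.H 9 (rf E x.t P ∅ ∅).P1} {α : (b.F p U δ).F0.H 9 E.o.P1}
    (e : (b.F p U δ).F0.val 9 E.o.P1 α = (b.F p U δ).F0.val 9 (rf E x.t P ∅ ∅).P1 α') (η : E.K)
    (o : ∀ z ∉ W.un c P, vC (Ld f x ψ ((α, 0, 0), η)) z = 0) :
    vC (Ld f x ψ ((α, 0, 0), η)) = (b.F p U δ).F0.val 8 (rf E x.t P ∅ ∅).P2
      (fderiv ℝ g ((rx H x h1 (empty_subset _) ∅).pt 8) (α', 0, 0)).2.1 := by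
  funext z
  by_cases k : z ∈ W.un c P
  · have e' := eq_id (P := (rf E x.t P ∅ ∅).P1) (Q := E.o.P1) H.F.sup
      (Ax1.Lf.map1 (P := P) x h1) (k := 9) (by norm_num) e
    have k1 : (Ld f x ψ (0, η)).1 = 0 := der_const
      (Hp13.Rcj.der0 (X := E.Y) (.fst ℝ _ _) (der_K H.F x hf.sm ψ η)) fun s =>
        (hf.e x _).unique H.F (by norm_num) (hf.e x _)
    have e2 : (((α, 0, 0), η) : E.C) = ((α, 0, 0), 0) + (0, η) :=
      Prod.ext (add_zero _).symm (zero_add _).symm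
    have e3 : (Ld f x ψ ((α, 0, 0), η)).1 = (Ld f x ψ ((α, 0, 0), 0)).1 := by
      rw [e2, map_add, Prod.fst_add, k1, add_zero]
    refine (congrArg (fun a : E.o.Y n _ 8 => (b.F p U δ).F0.val 8 E.o.P2 a.2.1 z) e3).trans ?_
    exact (congrArg (fun a => (b.F p U δ).F0.val 8 E.o.P2 (Ld f x ψ ((a, 0, 0), 0)).1.2.1 z) e').trans
      (der_in H x h1 F hf ψ hg hz α' k)
  · exact (o z k).trans (idx_off (o := rf E x.t P ∅ ∅) (val_proj (p := (rf E x.t P ∅ ∅).P2) H.F.sup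
      (k := 8) (by norm_num) _ z) k).symm

end job

open G75 in
/-- **LEAF LA** -/
theorem la {κ lam : Type} [Fintype κ] [Fintype lam] [DecidableEq lam] (Lm : LM κ lam) :
    All Lm La := fun _ _ _ _ _ _ _ _ _ _ =>
  ⟨1, one_pos, fun _ _ _ _ _ _ _ _ x ψ _ C _ hf _ hg α' α η e hη =>
    have t := Nr55.la_tg C hf α' α η e hη
    ⟨t, vc_eq C.cs x sub_in ((Nti57.pg_sp C.cs.toPG sub_in (empty_subset _)).fam C.cs.eo.d0
      C.cs.eo.d1) hf ψ hg (fun z k => C.ins.ab.z z (Nr55.oI_eq.ge k)) e η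
      fun z k => t.C z fun m => k (Nr55.oI_eq.le m)⟩⟩

end Crest.Agent.X212.Hsa39.La
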