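import Crest.Agent.X212.Qab60.End
import Crest.Agent.X212.End3.Dec
import Crest.Agent.X212.Map77.Rp

/-!
# Row 212, NT-R, HSA (helper39): abelian variations at the level of families
-/

set_option autoImplicit false
set_option linter.unusedSectionVars false
noncomputable section
open scoped Manifold ContDiff Topology InnerProductSpace
open MeasureTheory Set Function Filter
open Crest.Agent.R208.F (Ext)

namespace Crest.Agent.X212.Hsa39
open An Sob92 Prm93 Mod61 Qab60 Num57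
open Grp76 (Nice)
open Map77 (fm_ext idx_apply)

variable {E : Type} [NormedAddCommGroup E] [NormedSpace ℝ E] [FiniteDimensional ℝ E]
  [MeasurableSpace E] [BorelSpace E]
  {HM : Type} [TopologicalSpace HM] {I : ModelWithCorners ℝ E HM} [I.Boundaryless]
  {M : Type} [TopologicalSpace M] [ChartedSpace HM M] [IsManifold I ∞ M] [T2Space M]
  [MeasurableSpace M] [BorelSpace M] [SecondCountableTopology M]
  {ι : Type} [Fintype ι] {lam : Type} [Fintype lam] {T : Type} [NormedAddCommGroup T]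
  [NormedSpace ℝ T] {𝔉 : Fam I M ι lam T} (h : 𝔉.OK) {o : Ref 𝔉} {r : ℕ} (y : Pnt o r)
  {Ω : Set M} (hΩ : IsClopen Ω) {ξ : M → o.m.A} (R : Loc8.Rd (𝔉.G y.t).F o.m y.cfg.W Ω ξ)
include h

theorem cb_W (a : ι) : 𝔉.F0.Cb (y.cfg.W a) := by
  have := Cb_clm (Map77.oa a) (Map77.cb_uy h y)
  simp only [Map77.uy, Map77.oa_base] at this
  exact this

include hΩ R

/-- the parallel section is bounded with all derivatives -/
theorem cb_ξ : 𝔉.F0.Cb ξ := by
  have k := cb_ind_of_ode (F := 𝔉.F0.toPre) (v := ξ)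
    (L := fun a x => ∑ b, 𝔉.Si y.t x a b • -Wz78.adcL (y.cfg.W b x)) hΩ
    (fun x hx => ((R.sm x hx).of_le (by simp)).contMDiffWithinAt) (fun x hx a => by
      rw [(Map77.mix_inv h y.ht).D a ξ, _root_.sum_apply]
      exact Finset.sum_congr rfl fun b _ => congrArg _ (eq_neg_of_add_eq_zero_left (R.par x hx b)))
    (fun a => Cb_sum _ fun b _ => Cb_smul ((h.sSi a b).cb _ y.ht)
      (Cb_neg (Cb_clm Wz78.adcL (cb_W h y b)))) (C := 4) fun x hx => by
      nlinarith [Abel74.norm_sq o.ok (R.mem x hx) (R.sq x hx), norm_nonneg (ξ x)]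
  rwa [indicator_eq_self.2 fun x hx => by_contra fun e => hx (R.off x e)] at k

/-- a nice form times the parallel section is a smooth variation -/
theorem exists_hs {u : M → V1 ι} (hu : Nice 𝔉.F0.toPre u)
    (pu : ∀ x a, ∑ b, 𝔉.B.P a b x * u x b = u x a) :
    ∃ α ∈ Mod61.Hs 𝔉.F0.toPre fun x => idx (fun a b => 𝔉.B.P a b x) (Ω.indicator o.m.pg x),
      ∀ z, idx (𝔉.S y.t z) (.id ℝ _) (α z) = tn (u z) (ξ z) := by
  have g : ∀ x, Ω.indicator o.m.pg x (ξ x) = ξ x := fun x => by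
    by_cases hx : x ∈ Ω
    · rw [indicator_of_mem hx, Wz78.pg_of_mem (R.mem x hx)]
    · rw [R.off x hx, map_zero]
  refine ⟨fun z => idx (𝔉.Si y.t z) (.id ℝ _) (tn (u z) (ξ z)), (Grp76.hs_iff h).2 ⟨Nice.app
    (Std94.Kl.idx (K := Std94.cbK 𝔉.F0.toPre) (fun a b => (h.sSi a b).cb _ y.ht) (Cb_const _))
    (Nice.fm fun a => (hu.clm (Map77.pj ℝ a)).bil' (ContinuousLinearMap.lsmul ℝ ℝ) (cb_ξ h y hΩ R)),
    fun x => ?_⟩, fun z => ?_⟩
  · rw [Map77.idx_idx]
    refine fm_ext fun a => ?_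
    simp [h.PSi _ y.ht, tn, g]
  · rw [Map77.idx_idx]
    refine fm_ext fun a => ?_
    simp only [idx_apply, h.SSi _ y.ht, tn, ContinuousLinearMap.comp_apply,
      ContinuousLinearMap.id_apply, smul_smul, ← Finset.sum_smul, pu]

end Crest.Agent.X212.Hsa39
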