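import Crest.Agent.X212.Hsa39.Fam
import Crest.Agent.X212.Qab60.Lq
import Crest.Agent.X212.Pte3.Defs
import Crest.Agent.X212.Mp86.St

/-!
# Row 212, NT-R, HSA (helper39): decaying functions inside a wall are nice
-/

set_option autoImplicit false
set_option linter.unusedSectionVars false
noncomputable section
open scoped Manifold ContDiff Topology InnerProductSpace
open MeasureTheory Set Function Filter
open Crest.Agent.R208.F (Ext)

namespace Crest.Agent.X212.Hsa39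
open An M Sob92 Prm93 Mod61 Qab60 Num57 Nd18 Nk89 Cht98 Rf65 Pte3
open Grp76 (Nice)
open Dr59 (pm)
open Cyf70 (IC)

variable {Wi : Type} {X : Mf 4} {A κ lam : Type} [Fintype A] [Fintype κ] [Fintype lam]
  [DecidableEq lam] {M : Mark X A κ} {W : World M} {N : ML M lam} {Λ : Lns W N}
  {A' h : Type} [Fintype A'] [DecidableEq A'] [Fintype h] {r n : ℕ}
  {J : Job Wi Λ A' h r n} {c : M.Cl} {R : A} {s s' : A' → ℝ}

/-- the ends do not depend on the parameter -/
theorem ψ_eq (hJ : J.OK) {e : Bool} (ha : Act J.m c R (some e) (J.Θ s))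
    (ha' : Act J.m c R (some e) (J.Θ s')) {q : (J.xs R).Y.M × ℝ}
    (hq : q.2 ∈ (J.K c R _ _ ha).J) :
    q.2 ∈ (J.K c R _ _ ha').J ∧ (J.K c R _ _ ha).ψ q = (J.K c R _ _ ha').ψ q := by
  have e1 : (J.Θ s).2 R = 1 := ha.2.1.2 ha.2.2.2
  have e2 : (J.Θ s').2 R = 1 := ha'.2.1.2 ha'.2.2.2
  have k : q.2 ∈ (J.K c R _ _ ha').J := by
    rwa [isNk_J ha' (hJ.nk _ _ _ _ ha'), e2, ← e1, ← isNk_J ha (hJ.nk _ _ _ _ ha)]
  exact ⟨k, by rw [isNk_ψ ha (hJ.nk _ _ _ _ ha) hq, isNk_ψ ha' (hJ.nk _ _ _ _ ha') k, e1, e2]⟩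

theorem c1_pm (ha : Act J.m c R (some false) (J.Θ s)) {q : (J.xs R).Y.M × ℝ}
    (hq : q.2 ∈ (kI J c R s ha).J) (a : (W.Z c).M → Ext (W.Z c).E) :
    Qab60.c1 (J.G c s).F a ((kI J c R s ha).ψ q) =
      Qab60.c1 (J.xs R).D.Z (pm (IC (J.xs R).Y.I) (W.Z c).I (kI J c R s ha).ψ a) q :=
  Map77.fm_ext fun i => by
    have k : Dr59.mf (IC (J.xs R).Y.I) (W.Z c).I (kI J c R s ha).ψ q (ee (J.xs R).D.Z q i) =
      ee (J.G c s).F ((kI J c R s ha).ψ q) i :=
        (kI J c R s ha).iso.e i q ((kI J c R s ha).mem_src.2 hq)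
    change e1 _ _ = e1 _ _
    rw [← k, Dr59.pm_apply, e1, e1, R208.F.evA_pb]
    exact congrArg _ (funext fun i => by fin_cases i; rfl)

variable {σ : Cel A'} {p : Prt A A' h} {U : Type} [Fintype U] {δ : ℝ} {b : Bp J c}
  {V : Type} [NormedAddCommGroup V] [NormedSpace ℝ V]

/-- **decaying functions inside are nice** -/
theorem nice_dc (H : PG J c σ p) (d0 : 0 < δ) (d1 : δ ≤ dl0) (hπ : M.sys.Piece c.1 (hp R false))
    (ha : Act J.m c R (some false) (J.Θ s)) {u : (W.Z c).M → V} (hu : Sm (W.Z c).I u)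
    (off : Off (oI W c R) u) {g : (J.xs R).Y.M × ℝ → V}
    (e : ∀ q, q.2 ∈ (kI J c R s ha).J → u ((kI J c R s ha).ψ q) = g q) {T d : ℝ} (hd : δ < d)
    (dc : Dc (J.xs R).D.F T d g) : Nice (b.F p U δ).F0.toPre u := by
  have := M.con
  let ee := H.ends U b d0 d1
  have l := le_max_left ee.R T
  refine End3.nice_of_dec ee hd l hu (fun _ _ _ => rfl) fun i w => ?_
  have m := fun z (hz : max ee.R T < (ee.P i).sg * Prod.snd z) =>
    (End3.isOpen_hi _ _).eventually_mem hz |>.mono fun y hy =>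
      End3.mem_J (ee.okP i) l (le_of_lt hy)
  obtain ⟨⟨a, ka⟩, k⟩ := i
  have hb : Act J.m c a (some k) (J.Θ b.s) := ⟨ka.2, b.br, b.O, ka.1⟩
  by_cases t : hp R false a = some k
  · obtain ⟨rfl, rfl⟩ := Mp86.St.hp_some.1 t
    refine (dc w).imp fun C hC z hz => ?_
    have e1 : (ee.P (⟨a, ka⟩, false)).sg * z.2 = z.2 := one_mul _
    exact (congrArg norm (Dw_congr (F := (J.xs a).D.Z.toPre) w ((m z hz).mono fun y hy =>
      (congrArg u (ψ_eq H.ok hb ha hy).2).trans (e y (ψ_eq H.ok hb ha hy).1)))).trans_le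
      ((hC z ⟨trivial, (le_max_right _ _).trans_lt (hz.trans_eq e1)⟩).trans_eq
        (congrArg (fun t => C * Real.exp (-d * t)) e1.symm))
  · obtain ⟨π, h1, h2⟩ := (Sys.existsUnique_adj c.2 ka.1 k).exists
    refine ⟨0, fun z hz => ?_⟩
    refine (congrArg norm (Dw_congr (F := (J.xs a).D.Z.toPre) (v := (0 : ℝ) • fun _ => (0 : V))
      w ((m z hz).mono fun y hy => (off _ fun k' => t (Cyl58.pc_unique W.toCaps h1 hπ
        ((H.ok.nk _ _ _ _ hb).end_mem hb h1 h2 hy) k' ▸ h2)).trans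
        (zero_smul ℝ (0 : V)).symm))).trans_le ?_
    rw [Dw_smul _ _ contMDiff_const]
    simp

end Crest.Agent.X212.Hsa39
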