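import Crest.Agent.X212.Hsa39.Job
import Crest.Agent.X212.Cqn41.Nr0

/-!
# Row 212, NT-R, HSA (helper39): decaying forms are smooth variations
-/

set_option autoImplicit false
set_option linter.unusedSectionVars false
noncomputable section
open scoped Manifold ContDiff Topology InnerProductSpace
open MeasureTheory Set Function Filter

namespace Crest.Agent.X212.Hsa39
open An M Sob92 Prm93 Mod61 Qab60 Num57 Nd18 Nk89 Cht98 Rf65 Pte3 Nr41 G75 Ins26 Jb7
open Grp76 (Nice)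

variable {κ lam : Type} [Fintype κ] [Fintype lam] [DecidableEq lam] {Lm : LM κ lam}
  {S : Scene Lm} {D : S.Dat} {i : S.L} {Wi : Type} {r n : ℕ}
  {J : Job Wi (D.Λ i) (S.A ⊕ Unit) S.ls r n} {c : S.M.Cl} {δ : ℝ} {σ : Cel (S.A ⊕ Unit)} {R : S.A}
  {b : Bp J c} {E : ER σ R b δ} {q : Wi →₀ ℝ} {y : J.Obc c} {x : Pnt E.o r} {ψ : E.K}
  {ξ : (D.W.Z c).M → E.o.m.A} (C : Cr q y x ψ ξ)
include C

theorem pc : S.M.sys.Piece c.1 (hp R false) := C.cs.pok.pc _ (.inr rfl)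

theorem cl : IsClopen (oI D.W c R) := Cyl58.isClopen_pc _ (pc C)

theorem rd : Loc8.Rd ((FW σ R b δ).G x.t).F E.o.m x.cfg.W (oI D.W c R) ξ := by
  change Loc8.Rd (J.G c (b.θ _ _ x.t)).F E.o.m x.cfg.W (oI D.W c R) ξ
  rw [C.θ]
  exact C.ins.ab.rd

/-- the parallel section is bounded with all derivatives -/
theorem cbξ : (FW σ R b δ).F0.Cb ξ := cb_ξ C.cs.F x (cl C) (rd C)

/-- nice one-forms give smooth variations -/
theorem ha_of {u : (D.W.Z c).M → V1 (Option κ)} (hu : Nice (FW σ R b δ).F0.toPre u)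
    (pu : ∀ z a, ∑ k, (J.B c).P a k z * u z k = u z a) :
    ∃ α ∈ HA C, ∀ z, fa E x.t α z = tn (u z) (ξ z) := by
  have k := exists_hs C.cs.F x (cl C) (rd C) hu pu
  rw [← show D.W.un c {hp R false} = oI D.W c R from un_one _ _ _] at k
  exact k

theorem gok : (J.G c y.s).OK (J.B c) := C.θ ▸ C.cs.F.G _ x.ht

/-- **HSA, part 1** -/
theorem p1 : ∀ ha d a, δ < d → Dk J c R y.s ha d a →
    ∃ α ∈ HA C, ∀ z, fa E x.t α z = tn (Qab60.c1 (J.G c y.s).F a z) (ξ z) := fun ha _ a hd k =>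
  let ⟨_, _, dc⟩ := k.dc
  ha_of C (nice_dc C.cs.toPG C.cs.eo.d0 C.cs.eo.d1 (pc C) ha (sm_c1 k.fo.sm)
    (fun z hz => Map77.fm_ext fun j => by
      change e1 _ _ = 0
      rw [k.off z hz]; simp [e1])
    (fun _ hq => c1_pm ha hq a) hd dc) fun z j => (gok C).P ▸ k1_P _ a j z

end Crest.Agent.X212.Hsa39
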