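import Crest.Agent.X212.Hsa39.Rd0
import Crest.Agent.X212.Hp13.RtM
import Crest.Agent.X212.Nr55.Lf0

/-!
# Row 212, NT-R (helper39): the leaf RD
-/

set_option autoImplicit false
set_option linter.unusedSectionVars false
noncomputable section
open scoped Manifold ContDiff Topology InnerProductSpace
open MeasureTheory Set Function Filter

namespace Crest.Agent.X212.Hsa39.Rd
open An M Nd18 Mod61 Nk89 Cht98 Rf65 Pte3 Qab60 Nr41 Sob92
open An.Job (Sol)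
open Ax1.Lf (lφ lφ_pt)

section job
variable {Wi : Type} {X : Mf 4} {A κ lam : Type} [Fintype A] [Fintype κ] [Fintype lam]
  [DecidableEq lam] {M : Mark X A κ} {W : World M} {N : ML M lam} {Λ : Lns W N}
  {A' h : Type} [Fintype A'] [DecidableEq A'] [Fintype h] {r n : ℕ}
  {J : Job Wi Λ A' h r n} {c : M.Cl} {σ : Cel A'} {s : A' → ℝ} {w : Wi} {q : Wi →₀ ℝ}
  {τ : Tm (W.Z c).M (lam ⊕ lam) r n} {π : Reg A} {j : Fin r} {O : Set (W.Z c).M}

variable (J s w τ) in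
/-- the index `w` carries the term `τ` of the Dirac row -/
structure Wd : Prop where
  co : J.co w s ≠ 0
  cc : ∀ i, J.cc i w s = 0
  ev : ∀ x : Cfg (W.Z c).M (Option κ) (lam ⊕ lam) r, x.m.OK (W.Z c).I (J.B c) →
    (J.τw c s w).D x = J.co w s • x.tD (J.B c) (J.G c s).F τ ∧ (J.τw c s w).C x = 0 ∧
      (J.τw c s w).S x = 0

theorem la_w (hR : J.RichT s π) (iv : Wrd81.Inv X.I (W.Z c).I (J.tp c) (Wrd81.tq c J) (M.sys.U π)
    O (J.B c).l) (k : LA (W.Z c).I O j τ) : ∃ w, Wd J s w τ := by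
  rcases k with ⟨f, u, h1, h2, rfl⟩ | ⟨v, u, h1, h2, rfl⟩
  · obtain ⟨w, e, k1, k2, k3⟩ := (hR.p j).lin _ _ (iv.f _ h1) (iv.toIn.sw h2)
    refine ⟨w, k1, k2, fun x _ => ?_⟩
    have := Wrd81.τw_eq (c := c) k3 x
    rw [e, Tp.tm, List.map_cons, iv.sw' h2, Tp.lt, iv.tf _ h1] at this
    exact ⟨this.1, this.2.1.trans (smul_zero _), this.2.2.trans (smul_zero _)⟩
  · obtain ⟨w, e, k1, k2, k3⟩ := (hR.p j).anti _ _ (iv.s _ h1) (iv.toIn.sw h2)
    refine ⟨w, k1, k2, fun x hx => ?_⟩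
    have := Wrd81.τw_eq (c := c) k3 x
    rw [e, Tp.tm, iv.sw' h2, iv.ts _ h1] at this
    refine ⟨this.1.trans ?_, this.2.1.trans (smul_zero _), this.2.2.trans (smul_zero _)⟩
    simp only [Cfg.tD, hx.jl, Tp.co]

theorem Wd.τ_eq (k : Wd J s w τ) (t : ℝ) {x : Cfg (W.Z c).M (Option κ) (lam ⊕ lam) r}
    (hx : x.m.OK (W.Z c).I (J.B c)) :
    (∀ z, (J.τ c (q + Finsupp.single w t) s).D x z =
      (J.τ c q s).D x z + (t * J.co w s) • x.tD (J.B c) (J.G c s).F τ z) ∧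
    (∀ z, (J.τ c (q + Finsupp.single w t) s).C x z = (J.τ c q s).C x z) ∧
    ∀ i, (J.τ c (q + Finsupp.single w t) s).S x i = (J.τ c q s).S x i := by
  have f : ∀ {V : Type} [AddCommGroup V] (g : Wi → ℝ → V), (∀ w, g w 0 = 0) →
      (∀ w a b, g w (a + b) = g w a + g w b) → (q + Finsupp.single w t).sum g = q.sum g + g w t :=
    fun g h1 h2 => by rw [Finsupp.sum_add_index' h1 h2, Finsupp.sum_single_index (h1 w)]
  obtain ⟨e1, e2, e3⟩ := k.ev x hx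
  refine ⟨fun z => ?_, fun z => ?_, fun i => ?_⟩ <;>
    refine (congrArg (_ + ·) (f _ (fun _ => by simp) fun _ _ _ => by simp [add_smul, add_mul])).trans
      ((add_assoc _ _ _).symm.trans ?_)
  · rw [e1, Pi.smul_apply, smul_smul]; rfl
  · rw [e2, Pi.zero_apply, smul_zero, add_zero]; rfl
  · rw [e3, Pi.zero_apply, mul_zero, add_zero]; rfl

theorem Wd.kp {y : J.Obc c} (hP : PJ J c) (k : Wd J y.s w τ)
    (h0 : ∀ z, y.x.tD (J.B c) (J.G c y.s).F τ z = 0) : Finsupp.single w 1 ∈ Kp σ y := by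
  intro q h t
  rw [Finsupp.smul_single, smul_eq_mul, mul_one]
  obtain ⟨e1, e2, e3⟩ := k.τ_eq (q := q) t h.sol.ok
  refine ⟨h.cell, h.inf, ⟨h.sol.toAdm, fun z => ?_, fun z => ?_, fun i => (e3 i).trans (h.sol.S i)⟩,
    h.sub, fun j hj => ⟨(h.cut j hj).1, (h.cut j hj).2.trans ?_⟩,
    h.drop, h.lim, h.crit, fun a ha => ?_, h.int, h.lev⟩
  · rw [Cfg.eD, e1, h0, smul_zero, add_zero]; exact h.sol.D z
  · rw [Cfg.eC, e2]; exact h.sol.C z
  · rw [Abx52.σc_add, add_apply, left_eq_add, Abx52.σc_zero fun w hw =>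
      Finset.mem_singleton.1 (Finsupp.support_single_subset hw) ▸ k.cc j]
    rfl
  · have : ∀ q, (J.xs a).q q = 0 := fun q => by simp [Xs.q, (hP.nil a ha).2]
    rw [this, ← this q]
    exact h.brk a ha

variable {p : Prt A A' h} {U : Type} [Fintype U] {δ : ℝ} {b : Bp J c} {E : EC b p U δ}
  (H : CS σ E) (hO : IsClopen O) (sub : O ⊆ (b.F p U δ).Om') {x : Pnt E.o r}
  (hz : ∀ z ∈ O, x.cfg.Φ z = 0) {f g : E.C → E.Y} (hf : E.Map q f) (ψ : E.K)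
  {φ : (W.Z c).M → E.o.m.V} (hφ : φ ∈ Mod61.Hs (b.F p U δ).F0.toPre E.o.Pp)
  (off : ∀ z ∉ O, φ z = 0)

variable (x τ) in
/-- the value of a word along the line -/
def vw (s : ℝ) : (W.Z c).M → E.o.m.V := (lφ x hφ s).cfg.tD (J.B c) (J.G c (b.θ p U x.t)).F τ

variable (x) in
/-- the spinor along the line -/
def vφ (s : ℝ) : (W.Z c).M → E.o.m.V := (lφ x hφ s).cfg.Φ

include H

theorem tg_eq {e : E.Y} (k : Tg O ∅ ∅ e) : ((e.1.1, 0), 0) = e :=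
  Prod.ext (Prod.ext rfl (Prod.ext (val_injective H.F.sup (by norm_num) (val_zero.trans
    (funext fun z => (k.C z id).symm))) k.S.symm))
    (Prod.ext (funext fun i => (k.T i id).1.symm) (funext fun i => (k.T i id).2.symm))

theorem der_φ (hf : E.Map q f) (z : (W.Z c).M) :
    HasDerivAt (fun s : ℝ => (b.F p U δ).F0.val 8 E.o.Pm (f ((lφ x hφ s).pt 8, ψ)).1.1 z)
      ((b.F p U δ).F0.val 8 E.o.Pm (Ld f x ψ ((0, ofV _ 9 _ φ, 0), 0)).1.1 z) 0 := by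
  have d := Hp13.Rcj.der0 (X := E.Y) ((b.F p U δ).F0.ev 8 E.o.Pm z ∘L .fst ℝ _ _ ∘L .fst ℝ _ _)
    (Nt66.der_line (X := E.C) (x := (x.pt 8, ψ)) (Nt66.open_C H.F) hf.sm ⟨x.mem_U, trivial⟩
      ((0, ofV _ 9 E.o.Pp φ, 0), 0))
  have k : ∀ s : ℝ, ((x.pt 8, ψ) : E.C) + s • ((0, ofV _ 9 E.o.Pp φ, 0), 0) =
      ((lφ x hφ s).pt 8, ψ) := fun s =>
    Prod.ext (lφ_pt (k := 8) H.F x hφ (by norm_num) s).symm (by simp)
  simp only [k] at d
  exact d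

include hO hz off

theorem vφ_in (s : ℝ) {z} (k : z ∈ O) : vφ x hφ s z = s • φ z :=
  (add_assoc _ _ _).symm.trans ((congrArg (· + s • φ z) (hz z k)).trans (zero_add _))

theorem sc_φ (s : ℝ) : Sc O s (vφ x hφ s) (vφ x hφ 1) :=
  ⟨fun z k => by rw [vφ_in H hO hz hφ off s k, vφ_in H hO hz hφ off 1 k, one_smul], fun z k =>
    congrArg (fun a => E.o.Φ0 z + (x.φ z + a)) (show s • φ z = (1 : ℝ) • φ z by simp [off z k])⟩

include sub hf

theorem der_w (k : Wd J (b.θ p U x.t) w τ) (l : LA (W.Z c).I O j τ)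
    (hg : E.Map (q + Finsupp.single w 1) g) {z} (hz' : z ∈ O) :
    (b.F p U δ).F0.val 8 E.o.Pm (Ld g x ψ ((0, ofV _ 9 _ φ, 0), 0)).1.1 z =
      (b.F p U δ).F0.val 8 E.o.Pm (Ld f x ψ ((0, ofV _ 9 _ φ, 0), 0)).1.1 z -
        J.co w (b.θ p U x.t) • vw τ x hφ 1 z := by
  obtain ⟨_, tm⟩ := H.F.tameG _ x.ht
  have a := (der_φ H (x := x) ψ hφ hf z).sub ((hasDerivAt_id (0 : ℝ)).smul_const
    (J.co w (b.θ p U x.t) • vw τ x hφ 1 z))
  rw [one_smul] at a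
  refine Hp13.Rt.uq0 (der_φ H (x := x) ψ hφ hg z) a fun s => ?_
  have a1 := (tot_ev (b := b) (p := p) (U := U) (δ := δ) (t := x.t) (q := q + Finsupp.single w 1)
    (lφ x hφ s).cfg).1 z
  have a2 := (tot_ev (b := b) (p := p) (U := U) (δ := δ) (t := x.t) (q := q) (lφ x hφ s).cfg).1 z
  have a3 := (k.τ_eq (q := q) 1 (x := (lφ x hφ s).cfg) E.o.ok).1 z
  have a4 : vw τ x hφ s z = s • vw τ x hφ 1 z :=
    l.sc (c := (lφ x hφ 1).cfg) hO (Mp86.bumps_of_tame _ tm)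
      (Abel74.mcW ((lφ x hφ 1).ad0 H.F).conn) (sc_φ H hO hz hφ off s) hz'
  refine (congrFun (hg.e _ ψ).D z).trans ((indicator_of_mem (sub hz') _).trans (a1.trans ?_))
  refine Eq.trans ?_ (congrArg (· - _) ((congrFun (hf.e _ ψ).D z).trans
    ((indicator_of_mem (sub hz') _).trans a2))).symm
  refine (congrArg (_ - ·) a3).trans
    ((sub_add_eq_sub_sub _ _ _).trans (congrArg (HSub.hSub _) ?_))
  rw [one_mul]
  exact (congrArg (J.co w (b.θ p U x.t) • ·) a4).trans (smul_comm _ s (vw τ x hφ 1 z))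

theorem hit (K : Ld f x ψ ((0, ofV _ 9 _ φ, 0), 0) = 0) (k : Wd J (b.θ p U x.t) w τ)
    (l : LA (W.Z c).I O j τ) (hg : E.Map (q + Finsupp.single w 1) g)
    (m : Ld g x ψ ((0, ofV _ 9 _ φ, 0), 0) ∈ range (Ld f x ψ)) (e : (b.F p U δ).F0.H 8 E.o.Pm)
    (he : (b.F p U δ).F0.val 8 E.o.Pm e = vw τ x hφ 1) :
    (((e, 0), 0) : E.Y) ∈ (Ld f x ψ).range := by
  have t := Nr55.tg_φ H hO hz hg ψ (φ := ofV _ 9 _ φ) fun z k =>
    (congrFun (val_ofV hφ (by norm_num)) z).trans (off z k)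
  have e1 : (Ld g x ψ ((0, ofV _ 9 _ φ, 0), 0)).1.1 = (-J.co w (b.θ p U x.t)) • e :=
    val_injective H.F.sup (by norm_num) (funext fun z => by
      rw [val_smul, he, Pi.smul_apply]
      by_cases hz' : z ∈ O
      · rw [der_w H hO sub hz hf ψ hφ off k l hg hz', K, neg_smul]
        exact (congrArg (· - _) (congrFun val_zero z)).trans (zero_sub _)
      · exact (t.D z hz').trans ((congrArg _ (show vw τ x hφ 1 z = 0 from l.off hz')).trans (smul_zero _)).symm)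
  refine ((Ld f x ψ).range.smul_mem_iff (neg_ne_zero.2 k.co)).1 (mem_of_eq_of_mem ?_ m)
  refine Eq.trans ?_ (tg_eq H t)
  rw [e1]
  simp

include hφ in
theorem rd_job (pc : M.sys.Piece c.1 π) (o1 : O = W.pc c π) (o2 : O = W.φ c '' M.sys.U π)
    (hθ : b.θ p U x.t = s) (hR : J.RichT s π) (hj : x.z j ≠ 0) (ne : φ ≠ 0)
    (K : Ld f x ψ ((0, ofV _ 9 _ φ, 0), 0) = 0) (cl : IsClosed (range (Ld f x ψ)))
    (St : ∀ w τ, Wd J s w τ → LA (W.Z c).I O j τ → ∃ g, E.Map (q + Finsupp.single w 1) g ∧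
      ∀ v, Ld f x ψ v = 0 → Ld g x ψ v ∈ range (Ld f x ψ)) : Ht (Ld f x ψ) O ∅ ∅ := by
  subst hθ
  intro e he
  let L : (b.F p U δ).F0.H 8 E.o.Pm →L[ℝ] E.Y := .inl ℝ _ _ ∘L .inl ℝ _ _
  have iv := (Wrd81.inv_tp (J := J) (Wrd81.br_of H.ok H.mem (H.ovx x)) (Wrd81.U_src W.toCaps pc)).1
  rw [← o2] at iv
  have nz : ∃ z ∈ W.pc c π, (lφ x hφ 1).cfg.Φ z ≠ 0 := by
    obtain ⟨z, k⟩ := ne_iff.1 ne
    have m : z ∈ O := by_contra fun m => k (off z m)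
    refine ⟨z, o1 ▸ m, fun k' => k ?_⟩
    exact (one_smul ℝ _).symm.trans ((vφ_in H hO hz hφ off 1 m).symm.trans k')
  refine mem_of_eq_of_mem (tg_eq H he).symm (densD (n := n) H.F (k := 8) (by norm_num) (lφ x hφ 1)
    hO sub (o1 ▸ Wrd81.pc_cmp _ pc nz) (j := j) hj (N := (Ld f x ψ).range.comap L.toLinearMap)
    (cl.preimage L.continuous) (fun τ l e k => ?_) _ he.D)
  obtain ⟨w, hw⟩ := la_w hR iv l
  obtain ⟨g, hg, m⟩ := St w τ hw l
  exact hit H hO sub hz hf ψ hφ off K hw l hg (m _ K) e k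

end job

open G75 Ins26 Jb7
variable {κ lam : Type} [Fintype κ] [Fintype lam] [DecidableEq lam] {Lm : LM κ lam}
  {S : Scene Lm} {D : S.Dat} {i : S.L} {Wi : Type} {r n : ℕ}
  {J : Job Wi (D.Λ i) (S.A ⊕ Unit) S.ls r n} {c : S.M.Cl} {δ : ℝ} {σ : Cel (S.A ⊕ Unit)} {R : S.A}
  {b : Bp J c} {E : ER σ R b δ} {q : Wi →₀ ℝ} {y : J.Obc c} {x : Pnt E.o r} {ψ : E.K}
  {ξ : (D.W.Z c).M → E.o.m.A} (C : Cr q y x ψ ξ)
include C

theorem richT : J.RichT y.s (hp R false) := by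
  obtain ⟨_, _, _, _, _, _, g⟩ := C.jr
  obtain ⟨_, _, w⟩ := g.ri.rw
  exact ((g.gx.rich σ C.cs.mem _ C.sol.cell c C.sol.inf (by simp)).2 _ (Hp13.Rt.pc C false)).1
    fun l hl => by rw [hp, if_neg fun e : l = R => w.nl (e ▸ hl)]; nofun

theorem y_z : (∃ j, x.z j ≠ 0) ∧ ∀ z ∈ oI D.W c R, y.x.Φ z = 0 := by
  obtain ⟨u, ζ, e, -⟩ := C.ch.rep.e
  refine ⟨by_contra fun k => ?_, fun z hz => by_contra fun k => ?_⟩
  · have a : x.cfg.z = 0 := by ext j; exact not_not.1 (not_exists.1 k j)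
    simpa [a] using C.ins.ab.adm.z.resolve_left C.an.r0
  · obtain ⟨z, k1, k2⟩ := (C.cs.same (Hp13.Rt.solOn C) C.ch.rep.s e (π := hp R false)
      (.inr rfl)).sp.1 ⟨z, hz, k⟩
    exact k2 (C.ins.ab.z z k1)

theorem rd_at {f : E.C → E.Y} (hf : E.Map q f) : RchD f C := fun St _ hφ ne off K =>
  (y_z C).1.elim fun _ hj => rd_job C.cs (Nr55.cl_in C)
    (Nr55.oI_eq.trans_subset (biUnion_subset_biUnion_left sub_in)) C.ins.ab.z hf ψ hφ off
    (Hp13.Rt.pc C false) rfl (Hp13.Rt.pc_eq C.one C.np (Hp13.Rt.pc C false)) C.θ (richT C) hj ne K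
    St.cl fun _ _ k l => St.st _ (k.kp C.an.pj (l.zero (Nr55.cl_in C)
      ((C.cs.ok.tame C.cs.mem C.sol.ov).elim fun _ t => Mp86.bumps_of_tame _ t)
      (Abel74.mcW C.sol.sol.conn) (y_z C).2))

omit C in
variable (Lm) in
/-- **LEAF RD** -/
theorem rchD : All Lm fun C f => RchD f C := fun _ _ _ _ _ _ _ _ _ _ =>
  ⟨1, one_pos, fun _ _ _ _ _ _ _ _ _ _ _ C _ hf => rd_at C hf⟩

end Crest.Agent.X212.Hsa39.Rd
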