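import Crest.Agent.X212.Wrd81.Jb
import Crest.Agent.X212.Grp76.Md
import Crest.Agent.X212.Eqv71.Res

/-!
# Row 212, NT-R, RD (helper39): the linear words and their density
-/

set_option autoImplicit false
set_option linter.unusedSectionVars false
noncomputable section
open scoped Manifold ContDiff Topology InnerProductSpace
open MeasureTheory Set Function Filter

namespace Crest.Agent.X212.Hsa39.Rd
open An Sob92 Wrd81 Wz78 Mod61 Mp86
open Eqv71 (isRes_ind res_off)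

variable {E : Type} [NormedAddCommGroup E] [NormedSpace ℝ E] [FiniteDimensional ℝ E]
  [MeasurableSpace E] [BorelSpace E]
  {HM : Type} [TopologicalSpace HM] {I : ModelWithCorners ℝ E HM} [I.Boundaryless]
  {M : Type} [TopologicalSpace M] [ChartedSpace HM M] [IsManifold I ∞ M]
  [MeasurableSpace M] [T2Space M] [BorelSpace M] [SecondCountableTopology M]
  {ι : Type} [Fintype ι] {lam : Type} [Fintype lam] {r n : ℕ} {O : Set M} {F : Fr I M ι}

/-- `u` is `v` scaled by `t` over `O` -/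
def Sc {V : Type} [SMul ℝ V] (O : Set M) (t : ℝ) (u v : M → V) : Prop :=
  (∀ x ∈ O, u x = t • v x) ∧ ∀ x ∉ O, u x = v x

section res
variable {V : Type} [NormedAddCommGroup V] [InnerProductSpace ℝ V] {A : ι → M → V →L[ℝ] V}
  {t : ℝ} {u v w : M → V}

theorem isRes_sc (hO : IsClopen O) (hA : Mc I A) (h : Sc O t u v) (k : F.IsRes A v w) :
    ∃ w', F.IsRes A u w' ∧ Sc O t w' w := by
  have := isRes_add hA.sm (isRes_smul hA.sm t (isRes_ind hO k)) (isRes_ind hO.compl k)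
  refine ⟨_, (funext fun x => ?_ : (fun x => t • O.indicator v x + Oᶜ.indicator v x) = u) ▸ this,
    fun x hx => by simp [hx], fun x hx => by simp [hx]⟩
  by_cases hx : x ∈ O
  · simp [hx, h.1 x hx]
  · simp [hx, h.2 x hx]

theorem res_sc (hO : IsClopen O) (hB : Bumps I F.e F.dv) (hA : Mc I A) (ht : t ≠ 0)
    (h : Sc O t u v) : Sc O t (F.res A u) (F.res A v) := by
  rcases res_cases F A v with k | k
  · obtain ⟨w, k1, k2⟩ := isRes_sc hO hA h k
    rwa [res_eq hB hA k1]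
  rcases res_cases F A u with k' | k'
  · obtain ⟨w, k1, -⟩ := isRes_sc (t := t⁻¹) (u := v) hO hA
      ⟨fun x hx => by rw [h.1 x hx, inv_smul_smul₀ ht], fun x hx => (h.2 x hx).symm⟩ k'
    exact absurd ⟨_, k1⟩ k.1
  · rw [k.2, k'.2]
    exact ⟨fun _ _ => by simp, fun _ _ => rfl⟩

end res

variable (I O) in
/-- the words that are linear in the spinor -/
def LA (j : Fin r) (τ : Tm M lam r n) : Prop :=
  (∃ f u, Tf I O f ∧ SwIn I O u ∧ τ = .lin (.mul f :: u)) ∨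
    ∃ s u, Tv I O s ∧ SwIn I O u ∧ τ = .anti (.z j) s u

theorem cs_sm (J : En lam) (z : ℂ) (t : ℝ) (v : Eu lam) :
    cs J z (t • v) = t • cs J z v := by
  simp only [cs, map_smul, smul_add, smul_comm t]

theorem cs_0 (J : En lam) (z : ℂ) : cs J z 0 = 0 := by simp [cs]

section cfg
variable {c : Cfg M ι lam r} {B : Base M ι lam} {j : Fin r} {τ : Tm M lam r n}

theorem LA.off (h : LA I O j τ) {x : M} (hx : x ∉ O) : c.tD B F τ x = 0 := by
  rcases h with ⟨f, u, h, -, rfl⟩ | ⟨s, u, h, -, rfl⟩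
  · simp [Cfg.tD, Cfg.sw, Cfg.lt, image_eq_zero_of_notMem_tsupport fun k => hx (h.sub k)]
  · simp [Cfg.tD, cs_0, image_eq_zero_of_notMem_tsupport fun k => hx (h.sub k)]

variable (hO : IsClopen O) (hB : Bumps I F.e F.dv) (hA : Mc I c.W)
include hO hB hA

theorem sw_zero (h : ∀ x ∈ O, c.Φ x = 0) (w : SW M) : ∀ x ∈ O, c.sw F w x = 0 :=
  wd_ind (p := fun u : M → c.m.V => ∀ x ∈ O, u x = 0) h (fun t u hu x hx => by
    cases t with
    | G => exact res_off hO.compl hB hA (fun y hy => hu y (not_not.1 hy)) (not_not.2 hx)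
    | _ => simp [Cfg.lt, hu x hx]) w

theorem sw_sc {Φ : M → c.m.V} {t : ℝ} (h : Sc O t Φ c.Φ) (w : SW M) :
    ∀ x ∈ O, (⟨c.m, c.W, Φ, c.z⟩ : Cfg M ι lam r).sw F w x = t • c.sw F w x := by
  rcases eq_or_ne t 0 with rfl | ht
  · exact fun x hx => (sw_zero (c := ⟨c.m, c.W, Φ, c.z⟩) hO hB hA
      (fun x hx => (h.1 x hx).trans (zero_smul _ _)) w x hx).trans (zero_smul _ _).symm
  refine (wd_rel (r := Sc O t) h (fun a u v k => ?_) w).1
  cases a with
  | G => exact res_sc hO hB hA ht k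
  | mul f => exact ⟨fun x hx => by simp [Cfg.lt, k.1 x hx, smul_comm t], fun x hx => by simp [Cfg.lt, k.2 x hx]⟩
  | cl f => exact ⟨fun x hx => by simp [Cfg.lt, k.1 x hx, smul_comm t, Finset.smul_sum],
      fun x hx => by simp [Cfg.lt, k.2 x hx]⟩
  | im => exact ⟨fun x hx => by simp [Cfg.lt, k.1 x hx], fun x hx => by simp [Cfg.lt, k.2 x hx]⟩

theorem LA.sc (k : LA I O j τ) {Φ : M → c.m.V} {t : ℝ} (h : Sc O t Φ c.Φ) {x : M} (hx : x ∈ O) :
    (⟨c.m, c.W, Φ, c.z⟩ : Cfg M ι lam r).tD B F τ x = t • c.tD B F τ x := by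
  rcases k with ⟨f, u, -, -, rfl⟩ | ⟨s, u, -, -, rfl⟩ <;>
    simp only [Cfg.tD, sw_sc hO hB hA h _ x hx, map_smul, Cfg.co, cs_sm]

theorem LA.zero (k : LA I O j τ) (h : ∀ x ∈ O, c.Φ x = 0) (x : M) : c.tD B F τ x = 0 := by
  by_cases hx : x ∈ O
  · rcases k with ⟨f, u, -, -, rfl⟩ | ⟨s, u, -, -, rfl⟩ <;>
      simp only [Cfg.tD, sw_zero hO hB hA h _ x hx, map_zero, cs_0]
  · exact k.off hx

end cfg

variable {T : Type} [NormedAddCommGroup T] [NormedSpace ℝ T] {𝔉 : Fam I M ι lam T} {o : Ref 𝔉}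

/-- **density of the linear words** -/
theorem densD (h : 𝔉.OK) {k : ℕ} (hk : 4 ≤ k) (y : Pnt o r) (cl : IsClopen O) (sub : O ⊆ 𝔉.Om')
    (con : ∀ x ∈ O, ∃ x' ∈ connectedComponent x, y.cfg.Φ x' ≠ 0) {j : Fin r} (hj : y.z j ≠ 0)
    {N : Submodule ℝ (𝔉.F0.H k o.Pm)} (hN : IsClosed (N : Set (𝔉.F0.H k o.Pm)))
    (hit : ∀ τ : Tm M lam r n, LA I O j τ → ∀ e,
      𝔉.F0.val k o.Pm e = y.cfg.tD 𝔉.B (𝔉.G y.t).F τ → e ∈ N)
    (e : 𝔉.F0.H k o.Pm) (he : ∀ z ∉ O, 𝔉.F0.val k o.Pm e z = 0) : e ∈ N := by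
  have c := Grp76.Cb_ind (F := 𝔉.F0.toPre) cl (Cb_const (1 : ℝ))
  rw [← val_injective h.sup hk (a₁ := smulH _ k _ _ e) (a₂ := e) (funext fun x => by
    rw [val_smulH h.sup hk c]
    by_cases hx : x ∈ O <;> simp [hx, he])]
  refine HO_map hN (.id ℝ _) (fun u hu => ?_) (smulH_mem_HO c (closure_minimal
    support_indicator_subset cl.1) e)
  have R : RichP I O (.z j) fun τ : Tm M lam r n => LA I O j τ ∨ y.cfg.tD 𝔉.B (𝔉.G y.t).F τ = 0 :=
    ⟨fun f u a b => .inl (.inl ⟨f, u, a, b, rfl⟩), fun s u a b => .inl (.inr ⟨s, u, a, b, rfl⟩),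
      fun _ _ _ _ _ _ _ _ => .inr rfl, fun _ _ _ _ _ _ _ _ _ _ => .inr rfl⟩
  refine Ap.map_H (rep_mulH (h.cPm o) (Maps.of_left (Map77.ok_bd o h).sm.idem)) hN ?_
    ((Wrd81.pc h y cl cl.2 (by simp)).rich_D con (d := .z j) hj R ⟨u.2.1, u.2.2.1, fun _ => rfl⟩
      (subset_inter hu hu) fun x => ind_fix (u.2.2.2 x)) u (funext u.2.2.2).symm
  rintro v ⟨t1, τ, t2, rfl, -⟩ - w hw
  have e1 := (val_toH h.sup hk w).trans hw
  rcases t2 with t2 | t2
  · refine hit τ t2 _ (e1.trans (funext fun x => ?_))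
    by_cases hx : x ∈ O
    · rw [Ref.Pm, indicator_of_mem (sub hx)]; exact t1 x
    · rw [t2.off hx]; exact map_zero _
  · rw [val_injective h.sup hk (a₂ := 0) (e1.trans (funext fun x => by
      rw [t2, val_zero]; exact map_zero _))]
    exact zero_mem _

end Crest.Agent.X212.Hsa39.Rd
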